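import Vale.Agent.P236K3.Vec
import Vale.Agent.P236KE.Eng

/-!
# P236JK / Eng : the kernel program for the curvature modulo `(3, v_1 ^ 3)`

Arrays of elements of the field with three elements are pairs of numbers. The place of the
monomial `V`, the generators `w`, `b` and the exponent `e` is `((B * nw + w) * nb + b) * bb + e`,
where `B` decreases with the exponent of `v_2`. All other indices form the code of the array.
-/

noncomputable section

namespace Vale.Agent.P236JK

open Vale.Agent.P236K3 Vale.Agent.P236KE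

def shr (x : P) (s : Nat) : P := ⟨Nat.shiftRight x.a s, Nat.shiftRight x.b s⟩
def pmul (x y : P) : P :=
  ⟨Nat.lor (Nat.land x.a y.a) (Nat.land x.b y.b), Nat.lor (Nat.land x.a y.b) (Nat.land x.b y.a)⟩
def nmul (x : P) (c : Nat) : P := ⟨Nat.mul x.a c, Nat.mul x.b c⟩
def nrm (a b : Nat) : P := ⟨a, Nat.xor b (Nat.land a b)⟩
def ite' {α : Type} (c : Bool) (x y : α) : α := Bool.rec (motive := fun _ => α) y x c

/-- families of arrays -/
structure Fm : Type where
  f : Nat → P

/-- sums of terms -/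
inductive EX : Type
  | leaf : Nat → Nat → Nat → Nat → Nat → Nat → Nat → Nat → EX
  | neg : EX → EX
  | add : EX → EX → EX
  | shr : Nat → Nat → EX → EX
  | ga : Nat → EX → EX → EX
  | gc : Nat → Nat → EX → EX → EX

/-- entries of the first table: generator, exponents of the monomial, two numbers -/
inductive ML : Type
  | nil : ML
  | cons : Nat → Nat → Nat → Nat → Nat → Nat → Nat → ML → ML

/-- lists of lists of entries -/
inductive MLL : Type
  | nil : MLL
  | cons : ML → MLL → MLL

/-- binary trees of lists of pairs -/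
inductive DTr : Type
  | lf : DL → DTr
  | nd : DTr → DTr → DTr

/-- lists of trees -/
inductive DTL : Type
  | nil : DTL
  | cons : DTr → DTL → DTL

def MLL.tail (l : MLL) : MLL := MLL.rec (motive := fun _ => MLL) MLL.nil (fun _ t _ => t) l
def MLL.drop (l : MLL) (i : Nat) : MLL :=
  Nat.rec (motive := fun _ => MLL) l (fun _ ih => MLL.tail ih) i
def MLL.get (l : MLL) (i : Nat) : ML :=
  MLL.rec (motive := fun _ => ML) ML.nil (fun h _ _ => h) (MLL.drop l i)

def DTL.tail (l : DTL) : DTL := DTL.rec (motive := fun _ => DTL) DTL.nil (fun _ t _ => t) l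
def DTL.drop (l : DTL) (i : Nat) : DTL :=
  Nat.rec (motive := fun _ => DTL) l (fun _ ih => DTL.tail ih) i
def DTL.get (l : DTL) (i : Nat) : DTr :=
  DTL.rec (motive := fun _ => DTr) (DTr.lf DL.nil) (fun h _ _ => h) (DTL.drop l i)

/-- the leaf found by reading the bits of the key -/
def DTr.get (t : DTr) : Nat → DL :=
  DTr.rec (motive := fun _ => Nat → DL) (fun l _ => l)
    (fun _ _ l r k => ite' (Nat.beq (Nat.land k (nat_lit 1)) (nat_lit 0))
      (l (Nat.shiftRight k (nat_lit 1))) (r (Nat.shiftRight k (nat_lit 1)))) t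

/-- the pair number `i` of a list -/
def pairAt (l : DL) (i : Nat) : P :=
  DL.rec (motive := fun _ => P) P.zero (fun a b _ _ => ⟨a, b⟩) (DL.drop l i)

/-- the sums belonging to the structure maps and the ranks of the monomials -/
structure Cf : Type where
  t2 : EX
  t3 : EX
  t4 : EX
  h2 : EX
  h3 : EX
  h4 : EX
  rk : Nat

/-- the parameters of one group -/
structure Pm : Type where
  cf : Cf
  lo : MLL
  up : DTL
  dlo : Nat
  dm : Nat
  dup : Nat
  n : Nat
  bb : Nat
  tt : Nat
  w0 : Nat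
  nw : Nat
  b0 : Nat
  nb : Nat
  t0 : Nat
  d2 : Nat

variable (p : Pm)

def mb : Nat := Nat.mul p.nb p.bb
def blk : Nat := Nat.mul p.nw (mb p)
def ones (n : Nat) : Nat := Nat.sub (Nat.shiftLeft (nat_lit 1) n) (nat_lit 1)
def vA (v : Nat) : Nat := Nat.land v (nat_lit 3)
def vC (v : Nat) : Nat := Nat.land (Nat.shiftRight v (nat_lit 2)) (nat_lit 7)
def vD (v : Nat) : Nat := Nat.shiftRight v (nat_lit 5)
def wCD (v : Nat) : Nat := Nat.add (Nat.mul (nat_lit 13) (vC v)) (Nat.mul (nat_lit 40) (vD v))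
/-- the largest exponent of `v_2` -/
def top (v : Nat) : Nat := Nat.shiftRight (Nat.sub p.t0 (wCD v)) (nat_lit 2)
def hH (v : Nat) : Nat :=
  Nat.add (Nat.add (Nat.add (vA v) (Nat.mul (nat_lit 4) (top p v))) (wCD v))
    (Nat.add p.d2 (nat_lit 4))
def sV (s : Nat) : Nat := Nat.shiftRight s (nat_lit 27)
def sM (s : Nat) : Nat := Nat.land (Nat.shiftRight s (nat_lit 18)) (nat_lit 511)
def len2 (v x : Nat) : Nat := ite' (Nat.ble x (top p v)) x (Nat.succ (top p v))
def len1 (u s v : Nat) : Nat :=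
  force (Nat.shiftRight (Nat.sub (hH p v) (Nat.add (sM s) u)) (nat_lit 2)) (len2 p v)
/-- the number of rows which are needed -/
def len (u s : Nat) : Nat := force (sV s) (len1 p u s)
def msk (m : Nat) : Nat := ones (Nat.mul (Nat.succ m) (blk p))
/-- cut to the rows which are needed -/
def cut (u s : Nat) (x : P) : P :=
  Nat.rec (motive := fun _ => P) P.zero (fun m _ => P.and x (msk p m)) (len p u s)

def shf (s x : Nat) : Nat := Nat.add (Nat.mul s (blk p)) x
def dif (v v' : Nat) : Nat := Nat.mul (Nat.sub (top p v') (top p v)) (blk p)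
def gc2 (g : Nat → P) (v s' v' : Nat) : P := shr (g s') (dif p v v')
def gc1 (g : Nat → P) (v s' : Nat) : P := force (sV s') (gc2 p g v s')
def gc0 (c d : Nat) (f g : Nat → P) (s v : Nat) : P :=
  ite' (Nat.ble c (vC v) && Nat.ble d (vD v))
    (P.add (f s) (force (Nat.sub s (Nat.add (Nat.mul (nat_lit 536870912) c)
      (Nat.mul (nat_lit 4294967296) d))) (gc1 p g v))) (f s)

/-- the value of a sum -/
def ev (X : Nat → P) (e : EX) : Nat → P :=
  EX.rec (motive := fun _ => Nat → P)
    (fun dl _ _ _ _ _ _ _ s => force (Nat.add s dl) X)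
    (fun _ f s => P.neg (f s))
    (fun _ _ f g s => P.add (f s) (g s))
    (fun a x _ f s => shr (f s) (shf p a x))
    (fun a _ _ f g s => ite' (Nat.ble a (vA (sV s)))
      (P.add (f s) (force (Nat.sub s (Nat.mul (nat_lit 134217728) a)) g)) (f s))
    (fun c d _ _ f g s => force (sV s) (gc0 p c d f g s)) e

/-- one level: `k` is subtracted from the code -/
def lev (e : EX) (k : Nat) (X : Fm) (u s : Nat) : P :=
  cut p u s (force (Nat.sub s k) (ev p X.f e))

def lev' (e : EX) (k : Nat) (X : Fm) (u : Nat) : Fm := ⟨lev p e k X u⟩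

def iter (e : EX) (k : Nat) (X : Fm) (u w g : Nat) : Fm :=
  Nat.rec (motive := fun _ => Fm) X
    (fun n ih => force (Nat.add u (Nat.mul w (Nat.succ n))) (lev' p e k ih)) g

/-! the twisted upper functionals -/

def rowM : Nat := ones (mb p)
def row1 (x : P) : P :=
  nrm (Nat.land (Nat.shiftRight x.a (Nat.mul p.b0 p.bb)) (rowM p))
    (Nat.land (Nat.shiftRight x.b (Nat.mul p.b0 p.bb)) (rowM p))
def row2 (l : DL) (be : Nat) : P := row1 p (pairAt l be)
/-- the rows `be, be + 1, …, be + n - 1`, the first one on top -/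
def rows (l : DL) (be n : Nat) : P :=
  Nat.rec (motive := fun _ => P) P.zero
    (fun i ih => P.lor (P.shl ih (blk p)) (force (Nat.add be i) (row2 p l))) n
def base3 (l : DL) (n be : Nat) : P := rows p l be n
def base2 (l : DL) (s n : Nat) : P :=
  force (Nat.sub (Nat.succ (top p (sV s))) n) (base3 p l n)
def base1 (w s k : Nat) : P :=
  force (len p (nat_lit 0) s) (base2 p (DTr.get (DTL.get p.up w) k) s)
def base (w s : Nat) : P :=
  force (Nat.add (Nat.land s (nat_lit 63)) (Nat.mul (nat_lit 64) (sV s))) (base1 p w s)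

def tw4 (w d : Nat) : Fm := iter p p.cf.h4 (nat_lit 10485760) ⟨base p w⟩ (nat_lit 0) (nat_lit 0) d
def tw3 (w d c : Nat) : Fm := iter p p.cf.h3 (nat_lit 3407872) (tw4 p w d) (nat_lit 0) (nat_lit 0) c
def tw2 (w d c b : Nat) : Fm :=
  iter p p.cf.h2 (nat_lit 1048576) (tw3 p w d c) (nat_lit 0) (nat_lit 0) b

def repM : Nat := Nat.mul (rowM p) (repN (blk p) (Nat.succ (top p (nat_lit 0))))
def repW : Nat := repN (mb p) p.nw
/-- the twisted upper functionals, repeated for every lower generator -/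
def twR (w d c b s : Nat) : P := nmul (P.and ((tw2 p w d c b).f s) (repM p)) (repW p)

/-! the lower functionals -/

def spW : Nat := repN (Nat.sub (mb p) (nat_lit 1)) p.nw
def fil (x : Nat) : Nat := Nat.mul (Nat.land (Nat.mul x (spW p)) (repW p)) (repM p)
def lo3 (x y : Nat) : P := ⟨fil p x, fil p y⟩
def bits (x o : Nat) : Nat := Nat.land (Nat.shiftRight x o) (ones p.nw)
def ini3 (w d c b s : Nat) (ih : P) (x y : Nat) : P :=
  ite' (Nat.beq (Nat.add x y) (nat_lit 0)) ih (P.add ih (pmul (lo3 p x y) (twR p w d c b s)))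
def ini2 (w d c b s : Nat) (ih : P) (y x : Nat) : P :=
  force (Nat.xor y (Nat.land x y)) (ini3 p w d c b s ih x)
def ini1 (w d c b : Nat) (ih : P) (x y o s : Nat) : P :=
  force (bits p x o) (ini2 p w d c b s ih (bits p y o))
/-- the sum over the middle generators and monomials -/
def iniL (s0 a0 o j : Nat) : P :=
  ML.rec (motive := fun _ => P) P.zero
    (fun w a b c d x y _ ih => ite' (Nat.ble a a0)
      (force (Nat.sub s0 (Nat.mul (nat_lit 134479872) a)) (ini1 p w d c b ih x y o)) ih)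
    (MLL.get p.lo j)
def sJ (s : Nat) : Nat :=
  Nat.sub (sM s) (Nat.add (Nat.mul (nat_lit 13) (Nat.land s (nat_lit 15)))
    (Nat.mul (nat_lit 40) (Nat.land (Nat.shiftRight s (nat_lit 4)) (nat_lit 3))))
def sF (s : Nat) : Nat := Nat.land (Nat.shiftRight s (nat_lit 6)) (nat_lit 4095)
/-- the rank of a monomial in the last three generators -/
def rank (rk f : Nat) : Nat := byte rk f
def off (f : Nat) : Nat := Nat.add (Nat.mul p.n (rank p.cf.rk f)) p.w0
def iniC (s0 a0 j o : Nat) : P := iniL p s0 a0 o j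
def iniB (s f s0 : Nat) : P :=
  force (vA (sV s)) fun a0 => force (sJ s) fun j => force (off p f) (iniC p s0 a0 j)
def iniA (s f : Nat) : P := force (Nat.sub s (Nat.mul (nat_lit 64) f)) (iniB p s f)
def init (s : Nat) : P := cut p (nat_lit 0) s (force (sF s) (iniA p s))

def x4 (g4 : Nat) : Fm := iter p p.cf.t4 (nat_lit 0) ⟨init p⟩ (nat_lit 0) (nat_lit 40) g4
def x3 (g4 g3 : Nat) : Fm :=
  iter p p.cf.t3 (nat_lit 0) (x4 p g4) (Nat.mul (nat_lit 40) g4) (nat_lit 13) g3
def u0 (g4 g3 : Nat) : Nat := Nat.add (Nat.mul (nat_lit 40) g4) (Nat.mul (nat_lit 13) g3)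
def x2 (g4 g3 g2 : Nat) : Fm := iter p p.cf.t2 (nat_lit 0) (x3 p g4 g3) (u0 g4 g3) (nat_lit 4) g2

def colM : Nat := repN p.bb (Nat.mul (Nat.mul p.nb p.nw) (Nat.succ (top p (nat_lit 0))))
def ins (g4 g3 s g2 : Nat) : P := P.shl (P.and ((x2 p g4 g3 g2).f s) (colM p)) g2
def st1 (X : Fm) (s : Nat) : P := P.add (X.f s) (force (Nat.add s (nat_lit 262144)) X.f)
def stp (g4 g3 n : Nat) (X : Fm) (u s : Nat) : P :=
  cut p u s (ite' (Nat.beq (Nat.land n (nat_lit 3)) (nat_lit 0))
    (P.add (st1 X s) (force (Nat.shiftRight n (nat_lit 2)) (ins p g4 g3 s))) (st1 X s))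
def stp' (g4 g3 n : Nat) (X : Fm) (u : Nat) : Fm := ⟨stp p g4 g3 n X u⟩
/-- the values on the monomials of weight `u0 + n - 1` -/
def acc (g4 g3 n : Nat) : Fm :=
  Nat.rec (motive := fun _ => Fm) ⟨fun _ => P.zero⟩
    (fun n ih => force (Nat.add (u0 g4 g3) n) (stp' p g4 g3 n ih)) n

def sup (x : P) : Nat := Nat.lor x.a x.b
def nz1 (g4 g3 s n : Nat) : Nat := sup ((acc p g4 g3 n).f s)
def orR (f : Nat → Nat) (n : Nat) : Nat :=
  Nat.rec (motive := fun _ => Nat) (nat_lit 0) (fun i ih => Nat.lor ih (f i)) n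
/-- the places of nonzero values on monomials of weight `u` -/
def nz (s u : Nat) : Nat :=
  orR (fun g4 => orR (fun g3 => force (Nat.sub (Nat.succ u) (u0 g4 g3)) (nz1 p g4 g3 s))
    (nat_lit 8)) (nat_lit 3)

def ck3 (B w b s u : Nat) : Nat :=
  Nat.land (Nat.shiftRight (nz p s u)
    (Nat.mul (Nat.add (Nat.mul (Nat.add (Nat.mul B p.nw) w) p.nb) b) p.bb)) (ones p.bb)
def ck2 (v B w b W dw : Nat) : Nat :=
  ite' (Nat.ble W p.tt && Nat.ble dw W)
    (force (Nat.add (Nat.mul (nat_lit 134217728) v) (Nat.mul (nat_lit 262144) dw)) fun s =>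
      force (Nat.sub W dw) (ck3 p B w b s)) (nat_lit 0)
def ck1 (v B w b : Nat) : Nat :=
  force (Nat.add (Nat.add (Nat.add (vA v) (wCD v)) (Nat.mul (nat_lit 4) (Nat.sub (top p v) B)))
    (byte p.dup (Nat.add p.b0 b))) fun W => force (byte p.dlo (Nat.add p.w0 w)) (ck2 p v B w b W)
/-- zero if all values for the exponents `v` vanish -/
def chkV (v : Nat) : Nat :=
  orR (fun w => orR (fun b => orR (fun B => ck1 p v B w b) (Nat.succ (top p v))) p.nb) p.nw

/-- zero if the parameters are admissible -/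
def pre : Nat :=
  Nat.add (Nat.add (Nat.sub (Nat.succ p.nw) (mb p)) (Nat.sub p.tt (nat_lit 100)))
    (Nat.add (orR (fun w => Nat.sub (Nat.succ p.tt)
        (Nat.add (byte p.dlo (Nat.add p.w0 w)) (Nat.mul (nat_lit 4) p.bb))) p.nw)
      (orR (fun b => Nat.add (Nat.sub (byte p.dup (Nat.add p.b0 b)) p.d2)
        (Nat.sub p.tt (Nat.add (byte p.dup (Nat.add p.b0 b)) p.t0))) p.nb))

/-- the data of two consecutive matrices -/
structure Bs : Type where
  cf : Cf
  lo : MLL
  up : DTL
  dlo : Nat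
  dm : Nat
  dup : Nat
  n : Nat
  bb : Nat
  tt : Nat

/-- a group of generators and exponents -/
structure Gp : Type where
  w0 : Nat
  nw : Nat
  b0 : Nat
  nb : Nat
  t0 : Nat
  d2 : Nat
  v : Nat

def mkP (a : Bs) (g : Gp) : Pm :=
  ⟨a.cf, a.lo, a.up, a.dlo, a.dm, a.dup, a.n, a.bb, a.tt, g.w0, g.nw, g.b0, g.nb, g.t0, g.d2⟩

/-- the check of the exponents `4 * c + 32 * d + a`, `a < 3` -/
def okK (a : Bs) (g : Gp) : Bool :=
  Nat.beq (Nat.add (pre (mkP a g)) (orR (fun i => force (Nat.add g.v i) (chkV (mkP a g)))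
    (nat_lit 3))) (nat_lit 0)

end Vale.Agent.P236JK

end
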