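import Vale.Agent.P236JF.Alg
import Vale.Agent.P236EL.Cmp

/-!
# P236JK / Frob : recurrences for third powers of the generators modulo `(3, v_1 ^ 3)`
-/

noncomputable section

namespace Vale.Agent.P236JK

open MvPolynomial Vale.Agent.P236EL Vale.Agent.P236K2 Vale.Agent.P236KE Vale.Agent.P236JF

theorem mem_Jr_iff {r : ℕ} {a : AA (ZMod 3)} :
    a ∈ Jr (ZMod 3) r ↔ ∀ m : ℕ →₀ ℕ, m 0 < r → coeff m a = 0 := by
  classical
  refine ⟨fun h m hm => ?_, fun h => ?_⟩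
  · obtain ⟨u, w, rfl⟩ := Ideal.mem_span_pair.1 h
    rw [show ((3 : ℕ) : AA (ZMod 3)) = 0 from CharP.cast_eq_zero _ 3, mul_zero, zero_add,
      X_pow_eq_monomial, coeff_mul_monomial', if_neg]
    intro h1
    have h2 := h1 0
    rw [Finsupp.single_eq_same] at h2
    omega
  · rw [a.as_sum]
    refine Ideal.sum_mem _ fun m hm => ?_
    have h1 : Finsupp.single 0 r ≤ m :=
      Finsupp.single_le_iff.2 (not_lt.1 fun h2 => mem_support_iff.1 hm (h m h2))
    rw [← tsub_add_cancel_of_le h1, ← mul_one (coeff _ a), ← monomial_mul, ← X_pow_eq_monomial]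
    exact Ideal.mul_mem_left _ _ pow_mem_Jr

theorem coeff_Jr {a : AA (ZMod 3)} (h : a ∈ Jr (ZMod 3) 3) {V : Q4} (hV : V.1 < 3) :
    coeff (m4 V) a = 0 := mem_Jr_iff.1 h _ (by rwa [m4_0])

/-- the third power of a term -/
def cub (τ : DT) : DT := ⟨τ.c, 3 • τ.v, 3 • τ.x, 3 • τ.y⟩

/-- the third powers of the terms without `v_1` -/
def cubL (l : List DT) : List DT := (l.filter fun τ => Nat.beq τ.v.1 0).map cub

theorem m4_smul (k : ℕ) (e : Q4) : m4 (k • e) = k • m4 e := by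
  induction k with
  | zero => rw [zero_smul, zero_smul, m4_zero]
  | succ k ih => rw [succ_nsmul, succ_nsmul, m4_add, ih]

theorem ev1_cub (τ : DT) : (cub τ).ev1 (ZMod 3) = τ.ev1 (ZMod 3) ^ 3 := by
  simp only [DT.ev1, cub, monomial_pow, m4_smul, ZMod.pow_card]

theorem ev2_cub (τ : DT) : (cub τ).ev2 (ZMod 3) = τ.ev2 (ZMod 3) ^ 3 := by
  rw [DT.ev2, DT.ev2, monomial_pow, ev1_cub]
  simp only [cub, m4_smul]

theorem ev1_cub_mem {τ : DT} (h : τ.v.1 ≠ 0) : τ.ev1 (ZMod 3) ^ 3 ∈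
    (Jr (ZMod 3) 3).map (C : AA (ZMod 3) →+* GG (ZMod 3)) := by
  classical
  rw [← ev1_cub, DT.ev1, ← mul_one (monomial (m4 (cub τ).v) _), ← C_mul_monomial]
  refine Ideal.mul_mem_right _ _ (Ideal.mem_map_of_mem _ (mem_Jr_iff.2 fun m hm => ?_))
  rw [coeff_monomial, if_neg]
  rintro rfl
  rw [m4_0] at hm
  change 3 * τ.v.1 < 3 at hm
  omega

theorem cube_list {B : Type} [CommRing B] [CharP B 3] {J : Ideal B} {f : DT → B}
    (h1 : ∀ τ, f (cub τ) = f τ ^ 3) (h2 : ∀ τ : DT, τ.v.1 ≠ 0 → f τ ^ 3 ∈ J) {g : B} {l : List DT}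
    (h : g - (l.map f).sum ∈ J) : g ^ 3 - ((cubL l).map f).sum ∈ J := by
  have h3 : (l.map f).sum ^ 3 - ((cubL l).map f).sum ∈ J := by
    clear h
    induction l with
    | nil => simp [cubL]
    | cons τ l ih =>
      rw [List.map_cons, List.sum_cons, add_pow_char, cubL, List.filter_cons]
      rcases h4 : Nat.beq τ.v.1 0 with _ | _
      · rw [if_neg Bool.false_ne_true, add_sub_assoc]
        exact add_mem (h2 τ (Nat.ne_of_beq_eq_false h4)) ih
      · rw [if_pos rfl, List.map_cons, List.map_cons, List.sum_cons, h1, add_sub_add_left_eq_sub]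
        exact ih
  have h4 := add_mem (J.pow_mem_of_mem h 3 (by omega)) h3
  rwa [sub_pow_char, sub_add_sub_cancel] at h4

variable [Fact (Nat.Prime 3)] {n : ℕ}

/-- the list `l` is the diagonal of `g` -/
def DelJ (g : GG (ZMod 3)) (l : List DT) : Prop :=
  Del 3 (ZMod 3) g - (l.map (DT.ev2 (ZMod 3))).sum ∈ ((Jr (ZMod 3) 3).map C).map C

/-- the list `l` is the right unit of `a` -/
def EtaJ (a : AA (ZMod 3)) (l : List DT) : Prop :=
  etaR 3 (ZMod 3) a - (l.map (DT.ev1 (ZMod 3))).sum ∈ (Jr (ZMod 3) 3).map C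

theorem delJ_X {i : ℕ} (hi : i < 4) : DelJ (X i) (dlsJ i) :=
  mem_map_C_iff.2 fun F => mem_map_C_iff.2 fun E => (formJ _).del i hi F E

theorem etaJ_X {i : ℕ} (hi : i < 4) : EtaJ (X i) (elsJ i) :=
  mem_map_C_iff.2 ((formJ _).eta i hi)

theorem DelJ.cube {g : GG (ZMod 3)} {l : List DT} (h : DelJ g l) : DelJ (g ^ 3) (cubL l) := by
  rw [DelJ, map_pow]
  refine cube_list (f := DT.ev2 (ZMod 3)) ev2_cub (fun τ hτ => ?_) h
  rw [DT.ev2, monomial_pow, ← mul_one (_ ^ 3), ← C_mul_monomial]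
  exact Ideal.mul_mem_right _ _ (Ideal.mem_map_of_mem _ (ev1_cub_mem hτ))

theorem EtaJ.cube {a : AA (ZMod 3)} {l : List DT} (h : EtaJ a l) : EtaJ (a ^ 3) (cubL l) := by
  rw [EtaJ, map_pow]
  exact cube_list ev1_cub (fun τ hτ => ev1_cub_mem hτ) h

theorem delJ_pow {i : ℕ} (hi : i < 4) (k : ℕ) : DelJ (X i ^ 3 ^ k) (cubL^[k] (dlsJ i)) := by
  induction k with
  | zero => simpa using delJ_X hi
  | succ k ih =>
    rw [pow_succ, pow_mul, Function.iterate_succ_apply']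
    exact ih.cube

theorem etaJ_pow {i : ℕ} (hi : i < 4) (k : ℕ) : EtaJ (X i ^ 3 ^ k) (cubL^[k] (elsJ i)) := by
  induction k with
  | zero => simpa using etaJ_X hi
  | succ k ih =>
    rw [pow_succ, pow_mul, Function.iterate_succ_apply']
    exact ih.cube

omit [Fact (Nat.Prime 3)] in
theorem mon_step {R : Type} [CommRing R] {i k : ℕ} {G G' : Q4}
    (e : m4 G' = Finsupp.single i k + m4 G) :
    (monomial (m4 G') 1 : MvPolynomial ℕ R) = X i ^ k * monomial (m4 G) 1 := by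
  rw [e, X_pow_eq_monomial, monomial_mul, one_mul]

omit [Fact (Nat.Prime 3)] in
theorem m4_k0 (k a b c d : ℕ) : m4 (a + k, b, c, d) = Finsupp.single 0 k + m4 (a, b, c, d) := by
  simp only [m4, mk4, Finsupp.single_add]; abel

omit [Fact (Nat.Prime 3)] in
theorem m4_k1 (k a b c d : ℕ) : m4 (a, b + k, c, d) = Finsupp.single 1 k + m4 (a, b, c, d) := by
  simp only [m4, mk4, Finsupp.single_add]; abel

omit [Fact (Nat.Prime 3)] in
theorem m4_k2 (k a b c d : ℕ) : m4 (a, b, c + k, d) = Finsupp.single 2 k + m4 (a, b, c, d) := by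
  simp only [m4, mk4, Finsupp.single_add]; abel

omit [Fact (Nat.Prime 3)] in
theorem m4_k3 (k a b c d : ℕ) : m4 (a, b, c, d + k) = Finsupp.single 3 k + m4 (a, b, c, d) := by
  simp only [m4, mk4, Finsupp.single_add]; abel

variable (r' r : Fin n → (ℕ →₀ ℕ) → AA (ZMod 3))

/-- **The recurrence in `G`**, for any factor `g` whose diagonal is known. -/
theorem valJ_mul {g : GG (ZMod 3)} {l : List DT} (hl : DelJ g l) {G G' : Q4}
    (e : monomial (m4 G') 1 = g * monomial (m4 G) 1) {V : Q4} (hV : V.1 < 3) (E F : Q4) :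
    valJ r' r G' V E F = ((l.filter fun τ => le4 τ.v V).map fun τ =>
      (τ.c : ZMod 3) * valJ r' r G (V - τ.v) (E + τ.x) (F + τ.y)).sum := by
  set D := Del 3 (ZMod 3) (monomial (m4 G) 1) with hD
  have h1 : Del 3 (ZMod 3) (monomial (m4 G') 1) * mon2 (ZMod 3) E F =
      (Del 3 (ZMod 3) g - (l.map (DT.ev2 (ZMod 3))).sum) * (D * mon2 (ZMod 3) E F) +
        (l.map fun τ => C (C (monomial (m4 τ.v) (τ.c : ZMod 3))) *
          (D * mon2 (ZMod 3) (E + τ.x) (F + τ.y))).sum := by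
    have h00 : ∀ τ : DT, C (C (monomial (m4 τ.v) (τ.c : ZMod 3))) *
        (D * mon2 (ZMod 3) (E + τ.x) (F + τ.y)) = τ.ev2 (ZMod 3) * (D * mon2 (ZMod 3) E F) :=
      fun τ => by rw [mul_left_comm, ← ev2_mul, mul_left_comm]
    simp only [h00]
    rw [List.sum_map_mul_right, ← add_mul, sub_add_cancel, e, map_mul, mul_assoc]
  have h2 := coeff_Jr (Zf_mem r' r (Ideal.mul_mem_right (D * mon2 (ZMod 3) E F) _ hl)) hV
  rw [valJ, h1, map_add, coeff_add, h2, zero_add, map_list_sum, List.map_map]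
  simp only [Function.comp_def, Zf_C]
  exact coeff_terms V (fun τ => Zf r' r (D * mon2 (ZMod 3) (E + τ.x) (F + τ.y))) l

theorem valJ_frob {i : ℕ} (hi : i < 4) (k : ℕ) {G G' : Q4}
    (e : m4 G' = Finsupp.single i (3 ^ k) + m4 G) {V : Q4} (hV : V.1 < 3) (E F : Q4) :
    valJ r' r G' V E F = (((cubL^[k] (dlsJ i)).filter fun τ => le4 τ.v V).map fun τ =>
      (τ.c : ZMod 3) * valJ r' r G (V - τ.v) (E + τ.x) (F + τ.y)).sum :=
  valJ_mul r' r (delJ_pow hi k) (mon_step e) hV E F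

variable (s : (ℕ →₀ ℕ) → AA (ZMod 3))

/-- **The recurrence in `U`**, for any factor `a` whose right unit is known. -/
theorem TJ_mul {a : AA (ZMod 3)} {l : List DT} (hl : EtaJ a l) {U U' : Q4}
    (e : monomial (m4 U') 1 = a * monomial (m4 U) 1) {V : Q4} (hV : V.1 < 3) (E : Q4) :
    TJ s U' V E = ((l.filter fun τ => le4 τ.v V).map fun τ =>
      (τ.c : ZMod 3) * TJ s U (V - τ.v) (E + τ.x)).sum := by
  set D := etaR 3 (ZMod 3) (monomial (m4 U) 1) with hD
  have h1 : monomial (m4 E) 1 * etaR 3 (ZMod 3) (monomial (m4 U') 1) =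
      (etaR 3 (ZMod 3) a - (l.map (DT.ev1 (ZMod 3))).sum) * (monomial (m4 E) 1 * D) +
        (l.map fun τ => C (monomial (m4 τ.v) (τ.c : ZMod 3)) *
          (monomial (m4 (E + τ.x)) 1 * D)).sum := by
    have h00 : ∀ τ : DT, C (monomial (m4 τ.v) (τ.c : ZMod 3)) * (monomial (m4 (E + τ.x)) 1 * D) =
        τ.ev1 (ZMod 3) * (monomial (m4 E) 1 * D) := fun τ => by
      rw [← mul_assoc, ← mul_assoc, DT.ev1, C_mul_monomial, monomial_mul, m4_add, add_comm]
    simp only [h00]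
    rw [List.sum_map_mul_right, ← add_mul, sub_add_cancel, e, map_mul, mul_left_comm]
  have h2 := coeff_Jr (rAp_mem (x := RingHom.id _) (r := s) (mem_map_C_iff.1
    (Ideal.mul_mem_right (monomial (m4 E) 1 * D) _ hl))) hV
  rw [TJ, h1, map_add, coeff_add, h2, zero_add, map_list_sum, List.map_map]
  simp only [Function.comp_def, rAp_C_mul]
  exact coeff_terms V (fun τ => rAp (RingHom.id _) s (monomial (m4 (E + τ.x)) 1 * D)) l

theorem TJ_frob {i : ℕ} (hi : i < 4) (k : ℕ) {U U' : Q4}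
    (e : m4 U' = Finsupp.single i (3 ^ k) + m4 U) {V : Q4} (hV : V.1 < 3) (E : Q4) :
    TJ s U' V E = (((cubL^[k] (elsJ i)).filter fun τ => le4 τ.v V).map fun τ =>
      (τ.c : ZMod 3) * TJ s U (V - τ.v) (E + τ.x)).sum :=
  TJ_mul s (etaJ_pow hi k) (mon_step e) hV E

/-- the initial values as a sum over a list of pairs -/
theorem valJ_zero_list (y' y : ℕ → (ℕ →₀ ℕ) → AA (ZMod 3)) {F : Q4} {ml : List (ℕ × Q4)}
    (h1 : ml.Nodup) (h2 : ∀ a ∈ ml, a.1 < n)
    (h3 : ∀ w < n, ∀ m, coeff m (y w (m4 F)) ≠ 0 → m 0 < 3 → ∃ U, (w, U) ∈ ml ∧ m = m4 U)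
    {V : Q4} (hV : V.1 < 3) (E : Q4) :
    valJ (fun w : Fin n => y' w) (fun w : Fin n => y w) 0 V E F =
      (ml.map fun a => coeff (m4 a.2) (y a.1 (m4 F)) * TJ (y' a.1) a.2 V E).sum := by
  classical
  rw [valJ_zero (CharP.cast_eq_zero _ 3) _ _ hV E F
    (S := fun w : Fin n => (ml.toFinset.filter fun a => a.1 = (w : ℕ)).image Prod.snd)
    (fun w m h4 h5 => by
      obtain ⟨U, h6, rfl⟩ := h3 w w.2 m h4 h5
      exact ⟨U, Finset.mem_image.2 ⟨(w, U),
        Finset.mem_filter.2 ⟨List.mem_toFinset.2 h6, rfl⟩, rfl⟩, rfl⟩),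
    ← List.sum_toFinset _ h1, ← Finset.sum_fiberwise_of_maps_to (t := Finset.range n) (g := Prod.fst)
      fun a ha => Finset.mem_range.2 (h2 a (List.mem_toFinset.1 ha)), Finset.sum_range]
  refine Finset.sum_congr rfl fun w _ => ?_
  rw [Finset.sum_image fun a ha b hb e => Prod.ext
    ((Finset.mem_filter.1 ha).2.trans (Finset.mem_filter.1 hb).2.symm) e]
  exact Finset.sum_congr rfl fun a ha => by rw [(Finset.mem_filter.1 ha).2]

/-- **The curvature lies in the ideal** if the visible values vanish. -/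
theorem conv_mem {dw db : ℕ} {dm : Fin n → ℕ} (h' : ∀ w, HomR 3 ((dm w : ℤ) - db) (r' w))
    (h : ∀ w, HomR 3 ((dw : ℤ) - dm w) (r w)) {E : ℕ →₀ ℕ}
    (hE : Finsupp.weight (wt 3) E + dw < 121)
    (h0 : ∀ G V : Q4, V.1 < 3 → wt4 G = Finsupp.weight (wt 3) E → wt4 V + db = wt4 G + dw →
      valJ r' r G V 0 0 = 0) : ∑ w, conv 3 (r' w) (r w) E ∈ Jr (ZMod 3) 3 := by
  obtain ⟨G, rfl⟩ : ∃ G, E = m4 G := ⟨(E 0, E 1, E 2, E 3), eq_mk4 (by omega)⟩
  have h1 : ∑ w, conv 3 (r' w) (r w) (m4 G) ∈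
      WA 3 (ZMod 3) (Finsupp.weight (wz 3) (m4 G) + dw - db) :=
    AddSubgroup.sum_mem _ fun w _ => by
      have h2 := grPt_id.rAp (h' w) (grPt_id.Dop (h w) (monomial_one_mem (m4 G)))
      rwa [show Finsupp.weight (wz 3) (m4 G) + ((dw : ℤ) - dm w) + ((dm w : ℤ) - db) =
        Finsupp.weight (wz 3) (m4 G) + dw - db by ring] at h2
  refine mem_Jr_iff.2 fun m hm => by_contra fun h2 => ?_
  have h3 := h1 h2
  rw [show wz 3 = fun i => (wt 3 i : ℤ) from rfl, weight_cast, weight_cast] at h3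
  obtain ⟨V, rfl⟩ : ∃ V, m = m4 V := ⟨(m 0, m 1, m 2, m 3), eq_mk4 (by omega)⟩
  rw [m4_0] at hm
  rw [wt_m4] at hE
  rw [wt_m4, wt_m4] at h3
  exact h2 ((valJ_conv r' r G V).symm.trans (h0 G V hm (wt_m4 G).symm (by omega)))

end Vale.Agent.P236JK

end
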